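/-
R335/RT/Main: block RT (see R335/Notes)
Skeleton by helper48 (row 335); keep the statements unchanged, add any helper lemmas you like.
-/
import Crest.Agent.R335.Blocks
import Crest.Agent.R335.T.SNorm
import Crest.Agent.R335.T.Cmp
import Crest.Agent.R335.T.Min
import Crest.Agent.R335.T.MVG
import Crest.Agent.R335.T.DG
import Crest.Agent.R335.T.Lsc

set_option autoImplicit false
set_option linter.unusedSectionVars false
set_option linter.unusedVariables false
set_option linter.unusedSimpArgs false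

noncomputable section

namespace Crest.Agent.R335

open MeasureTheory Set Filter Topology Metric
open scoped ENNReal


theorem rt_double {F : X → ℝ} (h0 : ∀ᵐ x : X, x ∉ Hs → F x = 0) :
    ∫ x, (F x + F (rf x)) = 2 * ∫ x, F x := by
  by_cases hF : Integrable F
  · rw [integral_add hF (sym_rf.integrable.2 hF), sym_rf.integral]
    ring
  · have : ¬ Integrable fun x => F x + F (rf x) := by
      intro h
      refine hF ((h.indicator measurableSet_Hs).congr ?_)
      filter_upwards [h0, sym_rf.ae h0] with x h1 h2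
      by_cases hx : x ∈ Hs
      · have h3 : rf x ∉ Hs := by
          have h4 : 0 < x 2 := hx
          change ¬ 0 < rf x 2
          rw [rf_two]
          linarith
        rw [indicator_of_mem hx, h2 h3, add_zero]
      · rw [indicator_of_notMem hx, h1 hx]
    rw [integral_undef hF, integral_undef this, mul_zero]

theorem Cert.J_rf {δ : ℝ} {P b R : X → ℝ} (h : Cert δ P b R) (i : Fin 3) :
    ∀ᵐ x : X, J P b i (rf x) = -((if i = 2 then -1 else 1) * J P b i x) := by
  have h1 := wd_rf h.hP.hl i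
  have h2 := wd_rf h.hb.hl i
  have h3 := h.hb.hl.wd_neg i
  rw [show (fun x => P (rf x)) = P from funext h.P_even] at h1
  rw [show (fun x => b (rf x)) = fun x => -b x from funext h.b_odd] at h2
  filter_upwards [h1, h2, h3] with x h1 h2 h3
  rw [h3] at h2
  simp only [J, h.P_even, h.b_odd]
  split_ifs at h1 h2 ⊢
  · rw [h1, show wd (eX i) b x = wd (eX i) b (rf x) by linarith]
    ring
  · rw [h1, show wd (eX i) b x = -wd (eX i) b (rf x) by linarith]
    ring

/-- The Euler-Lagrange equation for test functions in the upper half space. -/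
theorem Cert.elH {δ : ℝ} {P b R : X → ℝ} (h : Cert δ P b R) {φ : X → ℝ} (hφ : LT eX φ)
    (h0 : ∀ᵐ x : X, x ∉ Hs → φ x = 0) :
    (∫ x, ∑ i, J P b i x * wd (eX i) φ x) + 2 * δ * ∫ x, P x * b x * φ x = 0 := by
  have hr := sym_rf.lt hφ
  obtain ⟨M, hM⟩ := hφ.bdd
  have key := h.el (fun x => φ x - φ (rf x)) (hφ.h1.sub hr.h1) ⟨M + M, by
    filter_upwards [hM, sym_rf.ae hM] with x h1 h2
    exact (abs_sub _ _).trans (add_le_add h1 h2)⟩ (Eventually.of_forall fun x => by
      simp only [rf_rf]; ring)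
  have e1 : ∫ x, ∑ i, J P b i x * wd (eX i) (fun x => φ x - φ (rf x)) x =
      2 * ∫ x, ∑ i, J P b i x * wd (eX i) φ x := by
    rw [← rt_double]
    · refine integral_congr_ae ?_
      filter_upwards [ae_all_iff.2 fun i => hφ.1.1.wd_sub hr.1.1 i,
        ae_all_iff.2 fun i => wd_rf hφ.1.1 i, ae_all_iff.2 h.J_rf] with x h1 h2 h3
      rw [← Finset.sum_add_distrib]
      refine Finset.sum_congr rfl fun i _ => ?_
      rw [h1 i, h2 i, h3 i]
      ring
    · filter_upwards [h0, ae_all_iff.2 fun i => hφ.1.1.wd_zero i] with x h1 h2 hx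
      exact Finset.sum_eq_zero fun i _ => by rw [h2 i (h1 hx), mul_zero]
  have e2 : ∫ x, P x * b x * (φ x - φ (rf x)) = 2 * ∫ x, P x * b x * φ x := by
    rw [← rt_double]
    · refine integral_congr_ae (Eventually.of_forall fun x => ?_)
      simp only [h.P_even, h.b_odd]
      ring
    · filter_upwards [h0] with x h1 hx
      rw [h1 hx, mul_zero]
  rw [e1, e2] at key
  linarith

theorem Cert.lh {δ : ℝ} {P b R : X → ℝ} (h : Cert δ P b R) {M : ℝ} (hM : ∀ᵐ x : X, |R x| ≤ M) :
    LH eX P ∧ LH eX b ∧ (∀ᵐ x : X, |P x| ≤ M ∧ |b x| ≤ M) ∧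
      ∀ i, MemLp (J P b i) 2 volume := by
  have h1 : ∀ᵐ x : X, |P x| ≤ M ∧ |b x| ≤ M := by
    filter_upwards [hM, h.sq] with x h1 h2
    exact ⟨(sq_le_sq.1 (by nlinarith [sq_nonneg (b x)])).trans h1,
      (sq_le_sq.1 (by nlinarith [sq_nonneg (P x)])).trans h1⟩
  refine ⟨h.hP.lh (h1.mono fun x hx => hx.1), h.hb.lh (h1.mono fun x hx => hx.2), h1, fun i => ?_⟩
  have key : ∀ {f g : X → ℝ}, Measurable f → (∀ᵐ x : X, |f x| ≤ M) → MemLp g 2 volume →
      MemLp (fun x => f x * g x) 2 volume := by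
    intro f g hf hb hg
    refine hg.of_le_mul (c := M) (hf.aestronglyMeasurable.mul hg.1) ?_
    filter_upwards [hb] with x hx
    rw [norm_mul]
    exact mul_le_mul_of_nonneg_right hx (norm_nonneg _)
  exact (key h.mb (h1.mono fun x hx => hx.2) (h.hP.2 i).2).sub
    (key h.mP (h1.mono fun x hx => hx.1) (h.hb.2 i).2)

/-- The gradients of `P` and `b` in terms of `∇R` and `J`. -/
theorem Cert.grad {δ : ℝ} {P b R : X → ℝ} (h : Cert δ P b R) (hR : H1 eX R) (hp : LocPos R)
    (i : Fin 3) : ∀ᵐ x : X,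
      wd (eX i) P x = (P x * wd (eX i) R x + b x * J P b i x / R x) / R x ∧
      wd (eX i) b x = (b x * wd (eX i) R x - P x * J P b i x / R x) / R x := by
  filter_upwards [h.hP.hl.wd_pyth h.hb.hl hR.hl h.sq i, h.sq, hp.ae_pos] with x h1 h2 h3
  have h4 := h3.ne'
  simp only [J]
  constructor
  · field_simp
    linear_combination P x * h1 - wd (eX i) P x * h2
  · field_simp
    linear_combination b x * h1 - wd (eX i) b x * h2

theorem rt_alg {R P b φ r p q f j : ℝ} (hR : 0 < R) (hb : 0 ≤ b) (hP : 0 ≤ P) (hφ : 0 ≤ φ)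
    (hs : P ^ 2 + b ^ 2 = R ^ 2) (hp : p = (P * r + b * j / R) / R)
    (hq : q = (b * r - P * j / R) / R) :
    (r * (P / (R + b)) + R * ((p * (R + b) - P * (r + q)) / (R + b) ^ 2)) * f ≤
      r * ((p * (R + b) - P * (r + q)) / (R + b) ^ 2 * φ + P / (R + b) * f) +
        j * ((f * (R + b) - φ * (r + q)) / (R + b) ^ 2) := by
  have h1 : 0 < R + b := by linarith
  have e1 : (p * (R + b) - P * (r + q)) / (R + b) ^ 2 = j / (R * (R + b)) := by
    rw [hp, hq]
    field_simp
    linear_combination j * hs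
  have e2 : r * (j / (R * (R + b)) * φ + P / (R + b) * f) +
      j * ((f * (R + b) - φ * (r + q)) / (R + b) ^ 2) =
      (r * (P / (R + b)) + R * (j / (R * (R + b)))) * f + φ * P * j ^ 2 / (R ^ 2 * (R + b) ^ 2) := by
    rw [hq]
    field_simp
    ring
  rw [e1, e2]
  have : 0 ≤ φ * P * j ^ 2 / (R ^ 2 * (R + b) ^ 2) := by positivity
  linarith

theorem stRtwo : StRtwo := by
  intro δ P b R M h hδ hR hp hM
  obtain ⟨lP, lb, hbd, hJ⟩ := h.lh hM
  have lR : LH eX R := hR.lh hM
  have lB : LH eX fun x => max (b x) 0 := lb.posPart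
  have lD : LH eX fun x => R x + max (b x) 0 := lR.add lB
  have pD : LocPos fun x => R x + max (b x) 0 :=
    hp.mono (Eventually.of_forall fun x => le_add_of_nonneg_right (le_max_right _ _))
  obtain ⟨lG, dG⟩ := lP.div lD pD
  have ey : yy P b R = fun x => R x * (P x / (R x + max (b x) 0)) := by
    funext x; rw [yy, mul_div_assoc]
  have ly : LH eX (yy P b R) := by rw [ey]; exact lR.mul lG
  have hcs : ∀ᵐ x : X, 0 < x 2 → cs P b x = b x / R x := by
    filter_upwards [h.sq, hp.ae_pos] with x h1 h2 hx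
    rw [cs, h1, Real.sqrt_sq h2.le, max_eq_left (h.b_nn x hx)]
  refine ⟨ly, ?_, fun S a hS ha hsub φ hφ hφ0 hφS => ?_⟩
  · filter_upwards [h.sq, hp.ae_pos, hcs] with x h1 h2 h3
    have hP0 := h.P_nn x
    have h4 : P x ≤ R x := abs_le_of_sq_le_sq' (by nlinarith [sq_nonneg (b x)]) h2.le |>.2
    have h5 : max (b x) 0 ≤ R x :=
      max_le (abs_le_of_sq_le_sq' (by nlinarith [sq_nonneg (P x)]) h2.le).2 h2.le
    have h6 : 0 ≤ max (b x) 0 := le_max_right _ _
    have h7 : P x / 2 ≤ yy P b R x := by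
      rw [yy, div_le_div_iff₀ two_pos (by linarith)]
      nlinarith
    refine ⟨h7, ?_, h4, fun h8 hx => ?_⟩
    · rw [yy, div_le_iff₀ (by linarith)]
      nlinarith
    · rw [h3 hx, le_div_iff₀ h2]
      have h9 := h.b_nn x hx
      nlinarith
  have hφH : ∀ᵐ x : X, x ∉ Hs → φ x = 0 := hφS.mono fun x hx h1 => hx fun h2 => h1 h2.1
  have hφS' : ∀ᵐ x : X, x ∉ S → φ x = 0 := hφS.mono fun x hx h1 => hx fun h2 => h1 h2.2
  have t1 : LT eX fun x => P x / (R x + max (b x) 0) * φ x := lG.mul_LT hφ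
  obtain ⟨l2, d2⟩ := hφ.1.div lD pD
  have t2 : LT eX fun x => φ x / (R x + max (b x) 0) := by
    obtain ⟨r, hr⟩ := hφ.2
    exact ⟨l2, r, hr.mono fun x hx h1 => by simp only [hx h1, zero_div]⟩
  have k1 := hsub _ t1 (by
    filter_upwards [hφ0, pD.ae_pos] with x h1 h2
    exact mul_nonneg (div_nonneg (h.P_nn x) h2.le) h1) (hφS'.mono fun x hx h1 => by
      rw [hx h1, mul_zero])
  have k2 := h.elH t2 (hφH.mono fun x hx h1 => by rw [hx h1, zero_div])
  have i1 := lR.1.integrable_dot t1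
  have i2 : Integrable fun x => ∑ i, J P b i x * wd (eX i) (fun x => φ x / (R x + max (b x) 0)) x :=
    integrable_finset_sum _ fun i _ => (hJ i).integrable_mul (t2.h1.2 i).2
  have k3 : dir eX (yy P b R) φ ≤ dir eX R (fun x => P x / (R x + max (b x) 0) * φ x) +
      ∫ x, ∑ i, J P b i x * wd (eX i) (fun x => φ x / (R x + max (b x) 0)) x := by
    unfold dir
    rw [← integral_add i1 i2]
    refine integral_mono_ae (ly.1.integrable_dot hφ) (i1.add i2) ?_
    rw [ey]
    filter_upwards [ae_all_iff.2 fun i => lR.wd_mul lG i, ae_all_iff.2 fun i => lG.wd_mul hφ.1 i,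
      ae_all_iff.2 dG, ae_all_iff.2 d2, ae_all_iff.2 fun i => lR.1.wd_add lB.1 i,
      ae_all_iff.2 fun i => lB.1.wd_eq_of_eq lb.1 i, ae_all_iff.2 (h.grad hR hp), h.sq, hp.ae_pos,
      hφ0, hφH, ae_all_iff.2 fun i => hφ.1.1.wd_zero i] with x a1 a2 a3 a4 a5 a6 a7 a8 a9 a10 a11 a12
    simp only [dot, ← Finset.sum_add_distrib]
    refine Finset.sum_le_sum fun i _ => ?_
    rw [a1 i, a2 i, a4 i]
    by_cases hx : x ∈ Hs
    · have hb := h.b_nn x hx
      have hm : max (b x) 0 = b x := max_eq_left hb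
      rw [a3 i, a5 i, a6 i hm, hm]
      exact rt_alg a9 hb (h.P_nn x) a10 a8 (a7 i).1 (a7 i).2
    · rw [a11 hx, a12 i (a11 hx)]
      simp
  have i3 : Integrable fun x => a x * R x * (P x / (R x + max (b x) 0) * φ x) :=
    ha.integrable_mul hS lR.1.1.aesm lR.2 t1 (hφS'.mono fun x hx h1 => by rw [hx h1, mul_zero])
  have i4 : Integrable fun x => P x * b x * (φ x / (R x + max (b x) 0)) :=
    t2.integrable_mul lP.1.1 lb.1.1
  have k4 : ∫ x, (a x + 2 * δ * cs P b x) * yy P b R x * φ x =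
      (∫ x, a x * R x * (P x / (R x + max (b x) 0) * φ x)) +
        2 * δ * ∫ x, P x * b x * (φ x / (R x + max (b x) 0)) := by
    rw [← integral_const_mul, ← integral_add i3 (i4.const_mul _)]
    refine integral_congr_ae ?_
    filter_upwards [hcs, hφH, hp.ae_pos, pD.ae_pos] with x a1 a2 a3 a4
    by_cases hx : x ∈ Hs
    · rw [a1 hx, yy]
      field_simp
    · rw [a2 hx]
      simp
  simp only [Pi.zero_apply, zero_mul, integral_zero] at k1 ⊢
  linarith

end Crest.Agent.R335
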